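import Vale.Agent.Lib.P181.helper49.Dim

/-!
# P181 (Foulkes' conjecture): the dimension inequality for all `a ≤ b`

For a complex vector space `V` of dimension `d`, the degree-`b` monomials in `d` variables,
i.e. the multisets of size `b` of the `d` basis vectors (`Sym (Fin d) b`), form a basis of
`Sym^b V`, and `Sym^a (Sym^b V)` is the space of homogeneous polynomials of degree `a` in
variables indexed by this basis.  The theorem says that for all `a ≤ b` and all `d`

* the monomial basis of `Sym^a (Sym^b V)` is no larger than that of `Sym^b (Sym^a V)`;
* the same as an inequality of dimensions of the polynomial models;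
* the same as an inequality of binomial coefficients.

This is only the dimension count that an injection `Sym^a (Sym^b V) → Sym^b (Sym^a V)` needs;
nothing is said about `GL(V)`-equivariance.
-/

namespace Vale.Agent.Results.P181.DimensionInequality

theorem result :
    (∀ d a b : ℕ, a ≤ b →
      Fintype.card (Sym (Sym (Fin d) b) a) ≤ Fintype.card (Sym (Sym (Fin d) a) b)) ∧
    (∀ d a b : ℕ, a ≤ b →
      Module.finrank ℂ (MvPolynomial.homogeneousSubmodule (Sym (Fin d) b) ℂ a) ≤
        Module.finrank ℂ (MvPolynomial.homogeneousSubmodule (Sym (Fin d) a) ℂ b)) ∧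
    (∀ d a b : ℕ, a ≤ b →
      ((d + b - 1).choose b + a - 1).choose a ≤ ((d + a - 1).choose a + b - 1).choose b) :=
  ⟨Vale.Agent.Lib.P181.H49.main_card, Vale.Agent.Lib.P181.H49.main_finrank,
    Vale.Agent.Lib.P181.H49.main_choose⟩

end Vale.Agent.Results.P181.DimensionInequality
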